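import Vale.Agent.P275.R2.H894.Rows

/-!
# Row OM: the generating coefficients to second order
-/

namespace Vale.Agent.P275.R2.H808

open Filter Topology Vale.Agent.P275.H341 Vale.Agent.P275.R2.H894
open scoped BigOperators

/-- the partition with one part -/
def one (k : ℕ) : Fin (k + 1) → ℕ := fun i => if i = 0 then k + 1 else 0

theorem mem_Pt {k : ℕ} {lam : Fin k → ℕ} :
    lam ∈ Pt k ↔ ∑ i, lam i = k ∧ ∀ i j : Fin k, i ≤ j → lam j ≤ lam i := by
  rw [Pt, Finset.mem_filter, Finset.Nat.mem_antidiagonalTuple]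

theorem one_mem (k : ℕ) : one k ∈ Pt (k + 1) := by
  rw [mem_Pt]
  constructor
  · simp [one]
  · intro i j hij
    simp only [one]
    by_cases hj : j = 0
    · have hi : i = 0 := by
        rw [hj] at hij
        exact Fin.le_zero_iff.1 hij
      rw [if_pos hj, if_pos hi]
    · rw [if_neg hj]
      exact Nat.zero_le _

/-- the other partitions have smaller parts -/
theorem lt_of_ne {k : ℕ} {lam : Fin (k + 1) → ℕ} (h : lam ∈ Pt (k + 1)) (hne : lam ≠ one k)
    (i : Fin (k + 1)) : lam i ≤ k := by
  rw [mem_Pt] at h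
  refine (h.2 0 i (Fin.zero_le i)).trans ?_
  by_contra hcon
  have hle : lam 0 ≤ k + 1 :=
    (Finset.single_le_sum (fun j _ => Nat.zero_le (lam j)) (Finset.mem_univ 0)).trans h.1.le
  have h0 : lam 0 = k + 1 := by omega
  apply hne
  funext j
  simp only [one]
  by_cases hj : j = 0
  · rw [if_pos hj, hj, h0]
  · rw [if_neg hj]
    have h3 : lam 0 + lam j ≤ ∑ i, lam i := by
      rw [← Finset.sum_pair (f := lam) (Ne.symm hj)]
      exact Finset.sum_le_sum_of_subset (Finset.subset_univ _)
    rw [h.1, h0] at h3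
    omega

theorem half (n : ℕ) : 2 * (n * (n + 1) / 2) = n * (n + 1) :=
  Nat.mul_div_cancel' (Nat.even_mul_succ_self n).two_dvd

/-- the order of the other partitions is smaller -/
theorem sum_lt {k : ℕ} {lam : Fin (k + 1) → ℕ} (h : lam ∈ Pt (k + 1)) (hne : lam ≠ one k) :
    ∑ i, lam i * (lam i + 1) / 2 + 1 ≤ (k + 1) * (k + 1 + 1) / 2 := by
  have h1 : 2 * ∑ i, lam i * (lam i + 1) / 2 ≤ (k + 1) * (k + 1) := by
    calc 2 * ∑ i, lam i * (lam i + 1) / 2 = ∑ i, lam i * (lam i + 1) := by
          rw [Finset.mul_sum]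
          exact Finset.sum_congr rfl fun i _ => half (lam i)
      _ ≤ ∑ i, lam i * (k + 1) := by
          refine Finset.sum_le_sum fun i _ => Nat.mul_le_mul_left _ ?_
          have := lt_of_ne h hne i
          omega
      _ = (k + 1) * (k + 1) := by
          rw [← Finset.sum_mul, (mem_Pt.1 h).1]
  have hk : 1 ≤ k := by
    by_contra hk0
    have hk1 : k = 0 := by omega
    subst hk1
    have h2 := lt_of_ne h hne 0
    have h3 := (mem_Pt.1 h).1
    simp at h3
    omega
  have h2 := half (k + 1)
  have h3 : (k + 1) * (k + 1 + 1) = (k + 1) * (k + 1) + (k + 1) := by ring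
  omega

/-- **Row OM.** -/
theorem rowOM (h1 : RowHK1) (h2 : RowHK2) : RowOM := by
  intro d e g k hd he hg
  have hN : 2 ≤ 2 * g - 2 := by omega
  set N : ℕ := 2 * g - 2 with hNdef
  rcases k with _ | k
  · have h0 : ∀ q : ℕ, om (powMonoidHom N) q d e 0 = 1 := by
      intro q
      have hP : Pt 0 = {![]} := by
        rw [Pt, Finset.Nat.antidiagonalTuple_zero_zero]
        simp
      rw [om, hP, Finset.sum_singleton]
      simp [hk]
    have h3 : Ex (fun _ => 1) 0 1 0 := Ex.one
    have h4 : d * e * N * (0 * (0 + 1) / 2) = 0 := by simp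
    rw [h4, if_pos rfl]
    exact h3.congr fun q => (h0 q).symm
  · rw [if_neg (Nat.succ_ne_zero k)]
    set β : ℂ := if d = 1 then -((N : ℂ) * e) else 0 with hβ
    have hterm : ∀ lam ∈ Pt (k + 1),
        Ex (fun q => (powMonoidHom N : ℂ →* ℂ) (hk ((q : ℂ) ^ d) lam) ^ e)
          (d * e * N * ((k + 1) * (k + 1 + 1) / 2)) (if lam = one k then 1 else 0)
          (if lam = one k then β else 0) := by
      intro lam hlam
      by_cases hl : lam = one k
      · rw [if_pos hl, if_pos hl]
        have h3 := ((h2 d k lam hd (by rw [hl]; simp [one])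
          (fun i hi => by rw [hl]; simp [one, hi])).pow N).pow e
        have h4 : d * ((k + 1) * (k + 2) / 2) * N * e =
            d * e * N * ((k + 1) * (k + 1 + 1) / 2) := by ring
        rw [h4] at h3
        have h5 : (e : ℂ) * ((N : ℂ) * (if d = 1 then -1 else 0)) = β := by
          rw [hβ]
          split_ifs <;> ring
        rw [h5] at h3
        exact h3
      · rw [if_neg hl, if_neg hl]
        obtain ⟨b, hb⟩ := h1 d (k + 1) lam hd hlam
        refine ((hb.pow N).pow e).low ?_
        have h3 := sum_lt hlam hl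
        have h4 : 2 ≤ d * e * N := by
          calc 2 ≤ N := hN
            _ = 1 * 1 * N := by ring
            _ ≤ d * e * N := by gcongr
        calc d * (∑ i, lam i * (lam i + 1) / 2) * N * e + 2
            ≤ d * (∑ i, lam i * (lam i + 1) / 2) * N * e + d * e * N := by omega
          _ = d * e * N * (∑ i, lam i * (lam i + 1) / 2 + 1) := by ring
          _ ≤ _ := Nat.mul_le_mul_left _ h3
    have h3 := Ex.sum (Pt (k + 1)) hterm
    rw [Finset.sum_ite_eq', Finset.sum_ite_eq', if_pos (one_mem k), if_pos (one_mem k)] at h3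
    exact h3

end Vale.Agent.P275.R2.H808
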